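import Vale.Agent.P039.H272.InvSum

/-!
# Step 3: the signed sum over the `g` disjoint from `f` is a determinant
-/

namespace Vale.Agent.P039.H272

open Finset Equiv

variable {β X : Type*} [Fintype β] [DecidableEq β] [Fintype X] [DecidableEq X]
  {face : β → Fin 3 → Option X}

/-- `f` is good: for every non-empty set `K` of faces some black has exactly one of its two
other faces in `K` (i.e. the graph `J - f` is connected) -/
def Good (face : β → Fin 3 → Option X) (f : β → Fin 3) : Prop :=
  ∀ K : Finset X, K.Nonempty → ∃ b, ¬ ((∃ x ∈ K, face b (f b + 1) = some x) ↔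
    (∃ x ∈ K, face b (f b + 2) = some x))

variable (face) in
/-- all cycles of all disjoint pairs are odd -/
def OddC : Prop := ∀ (p : Pr face) (b : β), Odd (orb (sig p) b).card

omit [Fintype X] [DecidableEq X] in
theorem sign_sig (h : OddC face) (p : Pr face) : Perm.sign (sig p) = 1 := by
  classical
  rw [Perm.sign_of_cycleType']
  apply Multiset.prod_eq_one
  intro z hz
  obtain ⟨n, hn, rfl⟩ := Multiset.mem_map.1 hz
  rw [Perm.cycleType_def, Multiset.mem_map] at hn
  obtain ⟨c, hc, rfl⟩ := hn
  have hc' : c ∈ (sig p).cycleFactorsFinset := hc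
  have hcy := (Perm.mem_cycleFactorsFinset_iff.1 hc').1
  obtain ⟨b, hb⟩ := hcy.nonempty_support
  have e1 : c = (sig p).cycleOf b := (Perm.cycle_is_cycleOf hb hc')
  have hb2 : b ∈ (sig p).support := Perm.mem_cycleFactorsFinset_support_le hc' hb
  have e2 : c.support = orb (sig p) b := by
    ext b'
    rw [mem_orb, e1, Perm.mem_support_cycleOf_iff]
    exact ⟨fun h => h.1, fun h => ⟨h, hb2⟩⟩
  have h3 : Odd (c.support.card) := by rw [e2]; exact h p b
  simp only [Function.comp_apply]
  rw [h3.neg_one_pow]
  exact neg_neg 1

open Classical in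
/-- the signed sum over the `g` disjoint from `f` -/
noncomputable def SS (face : β → Fin 3 → Option X) (f : β → Fin 3) : ℤ :=
  ∑ g : β → Fin 3, if IsM face g ∧ ∀ b, f b ≠ g b then ∏ b, eps (g b - f b) else 0

/-- the oriented incidence matrix -/
def MM (face : β → Fin 3 → Option X) (f : β → Fin 3) (e : β ≃ X) : Matrix β β ℤ :=
  fun b b' => ∑ c : Fin 3, if face b c = some (e b') then eps (c - f b) else 0

theorem SS_eq_det (h : OddC face) {f : β → Fin 3} (hf : IsM face f) :
    SS face f = (MM face f (em hf)).det := by
  classical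
  rw [← Matrix.det_transpose, Matrix.det_apply']
  have h1 : ∀ σ : Perm β, ∏ b, (MM face f (em hf)).transpose (σ b) b =
      ∑ g : β → Fin 3, ∏ b, (if face b (g b) = some (em hf (σ b)) then eps (g b - f b) else 0) := by
    intro σ
    simp only [Matrix.transpose_apply, MM]
    rw [Finset.prod_univ_sum, Fintype.piFinset_univ]
  simp_rw [h1, Finset.mul_sum]
  rw [Finset.sum_comm, SS]
  refine Finset.sum_congr rfl fun g _ => ?_
  by_cases hg : IsM face g ∧ ∀ b, f b ≠ g b
  · rw [if_pos hg]
    let p : Pr face := ⟨(f, g), hf, hg.1, hg.2⟩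
    have hs : ∀ b, face b (g b) = some (em hf (sig p b)) := by
      intro b
      have := sig_spec p b
      rw [em_spec p.2.1] at this
      exact this
    rw [Finset.sum_eq_single (sig p)]
    · rw [sign_sig h p]
      simp only [Units.val_one, Int.cast_one, one_mul]
      refine Finset.prod_congr rfl fun b _ => ?_
      rw [if_pos (hs b)]
    · intro σ _ hσ
      have : ∃ b, σ b ≠ sig p b := by
        by_contra hh
        push Not at hh
        exact hσ (Equiv.ext hh)
      obtain ⟨b, hb⟩ := this
      rw [Finset.prod_eq_zero (mem_univ b), mul_zero]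
      rw [if_neg]
      rw [hs b]
      intro he
      exact hb ((em hf).injective (Option.some.inj he)).symm
    · intro hh
      exact absurd (mem_univ _) hh
  · rw [if_neg hg]
    symm
    refine Finset.sum_eq_zero fun σ _ => ?_
    by_cases hall : ∀ b, face b (g b) = some (em hf (σ b))
    · have hm : IsM face g := ⟨σ.trans (em hf), hall⟩
      have : ∃ b, f b = g b := by
        by_contra hh
        push Not at hh
        exact hg ⟨hm, hh⟩
      obtain ⟨b, hb⟩ := this
      rw [Finset.prod_eq_zero (mem_univ b), mul_zero]
      rw [hb, sub_self, eps_zero, ite_self]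
    · push Not at hall
      obtain ⟨b, hb⟩ := hall
      rw [Finset.prod_eq_zero (mem_univ b), mul_zero]
      rw [if_neg hb]

theorem sum_fin3 (a : Fin 3) (F : Fin 3 → ℤ) :
    ∑ c, eps (c - a) * F c = F (a + 1) - F (a + 2) := by
  rw [Fin.sum_univ_three]
  fin_cases a
  · show eps 0 * F 0 + eps 1 * F 1 + eps 2 * F 2 = F 1 - F 2
    simp [eps]; ring
  · show eps (0 - 1) * F 0 + eps (1 - 1) * F 1 + eps (2 - 1) * F 2 = F 2 - F 0
    have h1 : eps (0 - 1) = -1 := by decide
    have h2 : eps (1 - 1) = 0 := by decide
    have h3 : eps (2 - 1) = 1 := by decide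
    rw [h1, h2, h3]; ring
  · show eps (0 - 2) * F 0 + eps (1 - 2) * F 1 + eps (2 - 2) * F 2 = F 0 - F 1
    have h1 : eps (0 - 2) = 1 := by decide
    have h2 : eps (1 - 2) = -1 := by decide
    have h3 : eps (2 - 2) = 0 := by decide
    rw [h1, h2, h3]; ring

/-- **a nonzero signed sum gives a good matching** -/
theorem good_of_SS (h : OddC face) {f : β → Fin 3} (hf : IsM face f) (hS : SS face f ≠ 0) :
    Good face f := by
  classical
  intro K hK
  by_contra hcon
  push Not at hcon
  apply hS
  rw [SS_eq_det h hf, ← Matrix.exists_mulVec_eq_zero_iff]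
  refine ⟨fun b => if em hf b ∈ K then 1 else 0, ?_, ?_⟩
  · obtain ⟨x, hx⟩ := hK
    intro h0
    have := congrFun h0 ((em hf).symm x)
    simp [hx] at this
  · funext b
    have h1 : ∀ c : Fin 3, ∑ b', (if face b c = some (em hf b') then
        (if em hf b' ∈ K then (1 : ℤ) else 0) else 0) =
        if ∃ x ∈ K, face b c = some x then 1 else 0 := by
      intro c
      rcases hc : face b c with _ | x
      · simp
      · rw [Finset.sum_eq_single ((em hf).symm x)]
        · by_cases hx : x ∈ K
          · simp [hx]
          · simp [hx]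
        · intro b' _ hb'
          rw [if_neg]
          intro he
          apply hb'
          rw [Option.some.inj he, Equiv.symm_apply_apply]
        · intro hh
          exact absurd (mem_univ _) hh
    have h2 : ((MM face f (em hf)).mulVec fun b => if em hf b ∈ K then 1 else 0) b =
        ∑ c, eps (c - f b) * (if ∃ x ∈ K, face b c = some x then (1 : ℤ) else 0) := by
      simp only [Matrix.mulVec, dotProduct, MM, Finset.sum_mul]
      rw [Finset.sum_comm]
      refine Finset.sum_congr rfl fun c _ => ?_
      rw [← h1 c, Finset.mul_sum]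
      refine Finset.sum_congr rfl fun b' _ => ?_
      by_cases hh : face b c = some (em hf b')
      · rw [if_pos hh, if_pos hh]
      · rw [if_neg hh, if_neg hh]; simp
    rw [h2, sum_fin3]
    have h3 := hcon b
    by_cases h4 : ∃ x ∈ K, face b (f b + 1) = some x
    · rw [if_pos h4, if_pos (h3.1 h4)]; simp
    · rw [if_neg h4, if_neg (fun h5 => h4 (h3.2 h5))]; simp

end Vale.Agent.P039.H272
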