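import Vale.Agent.P039.H272.Star

/-!
# Sums over the invariant sets of a permutation
-/

namespace Vale.Agent.P039.H272

open Finset Equiv

variable {β : Type*} [Fintype β] [DecidableEq β]

/-- the cycle (orbit) of `b` -/
noncomputable def orb (σ : Perm β) (b : β) : Finset β := by
  classical exact univ.filter (fun b' => σ.SameCycle b b')

theorem mem_orb {σ : Perm β} {b b' : β} : b' ∈ orb σ b ↔ σ.SameCycle b b' := by
  classical
  simp [orb]

/-- the quotient by the cycles -/
abbrev Orb (σ : Perm β) : Type _ := Quotient (Perm.SameCycle.setoid σ)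

noncomputable instance (σ : Perm β) : DecidableEq (Orb σ) := Classical.decEq _

noncomputable instance (σ : Perm β) : Fintype (Orb σ) :=
  @Quotient.fintype β _ (Perm.SameCycle.setoid σ) (Classical.decRel _)

/-- the class of `b` -/
def cl (σ : Perm β) (b : β) : Orb σ := Quotient.mk (Perm.SameCycle.setoid σ) b

theorem cl_eq {σ : Perm β} {b b' : β} : cl σ b = cl σ b' ↔ σ.SameCycle b b' :=
  Quotient.eq (r := Perm.SameCycle.setoid σ)

open Classical in
/-- **sum over invariant sets = product over the cycles** -/
theorem inv_sum {R : Type*} [CommRing R] (σ : Perm β) (A B : β → R) :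
    ∑ U ∈ (univ : Finset (Finset β)).filter (Inv σ), ∏ b, (if b ∈ U then A b else B b) =
      ∏ q : Orb σ, (∏ b ∈ univ.filter (fun b => cl σ b = q), A b +
        ∏ b ∈ univ.filter (fun b => cl σ b = q), B b) := by
  rw [Finset.prod_add]
  refine (Finset.sum_bij (fun (T : Finset (Orb σ)) _ => univ.filter (fun b => cl σ b ∈ T))
    ?_ ?_ ?_ ?_).symm
  · intro T _
    simp only [mem_filter, mem_univ, true_and, Inv]
    intro b
    have : cl σ (σ b) = cl σ b := cl_eq.2 (Perm.sameCycle_apply_left.2 (Perm.SameCycle.refl σ b))
    rw [this]
  · intro T _ T' _ h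
    ext q
    obtain ⟨b, rfl⟩ := Quotient.exists_rep q
    have := Finset.ext_iff.1 h b
    simp only [mem_filter, mem_univ, true_and] at this
    exact this
  · intro U hU
    simp only [mem_filter, mem_univ, true_and] at hU
    refine ⟨U.image (cl σ), by simp, ?_⟩
    ext b
    simp only [mem_filter, mem_univ, true_and, mem_image]
    constructor
    · rintro ⟨b', hb', h⟩
      have h' := cl_eq.1 h
      have key : ∀ n : ℤ, (σ ^ n) b' ∈ U := by
        intro n
        induction n using Int.induction_on with
        | zero => simpa using hb'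
        | succ n ih =>
          rw [add_comm, zpow_add, zpow_one, Perm.mul_apply]
          exact (hU _).2 ih
        | pred n ih =>
          rw [sub_eq_add_neg, add_comm, zpow_add, zpow_neg_one, Perm.mul_apply]
          exact (Inv.symm hU _).2 ih
      obtain ⟨n, hn⟩ := h'
      rw [← hn]
      exact key n
    · intro hb
      exact ⟨b, hb, rfl⟩
  · intro T _
    rw [← Finset.prod_fiberwise univ (cl σ)
      (fun b => if b ∈ univ.filter (fun b => cl σ b ∈ T) then A b else B b)]
    have h1 : ∀ q : Orb σ, ∏ b ∈ univ.filter (fun b => cl σ b = q),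
        (if b ∈ univ.filter (fun b => cl σ b ∈ T) then A b else B b) =
        if q ∈ T then ∏ b ∈ univ.filter (fun b => cl σ b = q), A b
          else ∏ b ∈ univ.filter (fun b => cl σ b = q), B b := by
      intro q
      by_cases hq : q ∈ T
      · rw [if_pos hq]
        refine Finset.prod_congr rfl fun b hb => ?_
        have hb' : cl σ b = q := (mem_filter.1 hb).2
        simp [hb', hq]
      · rw [if_neg hq]
        refine Finset.prod_congr rfl fun b hb => ?_
        have hb' : cl σ b = q := (mem_filter.1 hb).2
        simp [hb', hq]
    rw [Finset.prod_congr rfl fun q _ => h1 q, Finset.prod_ite]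
    congr 1
    · refine Finset.prod_congr ?_ fun _ _ => rfl
      ext q; simp
    · refine Finset.prod_congr ?_ fun _ _ => rfl
      ext q; simp

end Vale.Agent.P039.H272
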