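import Vale.Agent.P039.H272.Wsum

/-!
# Steps 3 and 4: a disjoint pair of matchings gives a good matching
-/

namespace Vale.Agent.P039.H272

open Finset Equiv

variable {β X : Type*} [Fintype β] [DecidableEq β] [Fintype X] [DecidableEq X]
  {face : β → Fin 3 → Option X}

theorem orb_three (hinj : ∀ b c c' x, face b c = some x → face b c' = some x → c = c')
    (p : Pr face) (b : β) (hodd : Odd (orb (sig p) b).card) : 3 ≤ (orb (sig p) b).card := by
  have hb : b ∈ orb (sig p) b := mem_orb.2 (Perm.SameCycle.refl _ _)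
  have hb' : sig p b ∈ orb (sig p) b :=
    mem_orb.2 (Perm.sameCycle_apply_right.2 (Perm.SameCycle.refl _ _))
  have hne : b ≠ sig p b := by
    intro h
    have h1 := sig_spec p b
    rw [← h] at h1
    have h2 := em_spec p.2.1 b
    exact p.2.2.2 b (hinj b _ _ _ h2 (h1.trans h2))
  have h2 : 1 < (orb (sig p) b).card := Finset.one_lt_card.2 ⟨b, hb, _, hb', hne⟩
  obtain ⟨k, hk⟩ := hodd
  omega

theorem term_eq (u : β → Fin 3 → ℝ) (t : ℝ) (p : Pr face) :
    term u t p = ((∏ b, eps (p.1.2 b - p.1.1 b) : ℤ) : ℂ) *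
      Complex.exp (∑ b, ((t * u b (p.1.1 b) : ℝ) : ℂ) * Complex.I) := by
  simp only [term, wB]
  rw [Finset.prod_mul_distrib, ← Complex.exp_sum]
  push_cast
  rfl

theorem sum_term_zero (u : β → Fin 3 → ℝ) (t : ℝ) (h : ∀ f, IsM face f → SS face f = 0) :
    ∑ p : Pr face, term u t p = 0 := by
  classical
  let T : (β → Fin 3) × (β → Fin 3) → ℂ := fun x => ((∏ b, eps (x.2 b - x.1 b) : ℤ) : ℂ) *
      Complex.exp (∑ b, ((t * u b (x.1 b) : ℝ) : ℂ) * Complex.I)
  have h1 : ∑ p : Pr face, term u t p = ∑ p : Pr face, T p.1 :=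
    Finset.sum_congr rfl fun p _ => term_eq u t p
  have h2 := Finset.sum_subtype (univ.filter fun x : (β → Fin 3) × (β → Fin 3) =>
    IsM face x.1 ∧ IsM face x.2 ∧ ∀ b, x.1 b ≠ x.2 b)
    (p := fun x => IsM face x.1 ∧ IsM face x.2 ∧ ∀ b, x.1 b ≠ x.2 b)
    (F := (inferInstance : Fintype (Pr face))) (fun x => by simp) T
  rw [h1, ← h2, Finset.sum_filter, Fintype.sum_prod_type]
  refine Finset.sum_eq_zero fun f _ => ?_
  by_cases hf : IsM face f
  · have h3 : ∀ g : β → Fin 3, (if IsM face (f, g).1 ∧ IsM face (f, g).2 ∧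
        ∀ b, (f, g).1 b ≠ (f, g).2 b then T (f, g) else 0) =
        ((if IsM face g ∧ ∀ b, f b ≠ g b then ∏ b, eps (g b - f b) else 0 : ℤ) : ℂ) *
        Complex.exp (∑ b, ((t * u b (f b) : ℝ) : ℂ) * Complex.I) := by
      intro g
      by_cases hg : IsM face g ∧ ∀ b, f b ≠ g b
      · rw [if_pos ⟨hf, hg.1, hg.2⟩, if_pos hg]
      · rw [if_neg (fun hh => hg hh.2), if_neg hg]
        simp
    rw [Finset.sum_congr rfl fun g _ => h3 g, ← Finset.sum_mul, ← Int.cast_sum]
    have h4 := h f hf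
    unfold SS at h4
    rw [h4]
    simp
  · refine Finset.sum_eq_zero fun g _ => ?_
    rw [if_neg (fun hh => hf hh.1)]

theorem sum_term_ne (u : β → Fin 3 → ℝ) (hst : Star face u)
    (hinj : ∀ b c c' x, face b c = some x → face b c' = some x → c = c')
    (hne : Nonempty (Pr face)) : ∃ t : ℝ, ∑ p : Pr face, term u t p ≠ 0 := by
  classical
  set M : ℝ := ∑ b, ∑ c, |u b c| with hM
  have hM0 : 0 ≤ M := Finset.sum_nonneg fun b _ => Finset.sum_nonneg fun c _ => abs_nonneg _
  set t : ℝ := 1 / (M + 1) with ht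
  have ht0 : 0 < t := by positivity
  have htM : t * M < 1 := by
    rw [ht, one_div, inv_mul_lt_iff₀ (by positivity)]
    linarith
  have hle : ∀ (f : β → Fin 3) (C : Finset β), |∑ b ∈ C, u b (f b)| ≤ M := by
    intro f C
    refine (Finset.abs_sum_le_sum_abs _ _).trans ?_
    refine (Finset.sum_le_sum fun b _ =>
      Finset.single_le_sum (f := fun c => |u b c|) (fun c _ => abs_nonneg _) (mem_univ (f b))).trans ?_
    exact Finset.sum_le_sum_of_subset_of_nonneg (subset_univ _)
      fun b _ _ => Finset.sum_nonneg fun c _ => abs_nonneg _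
  have hsm : ∀ (p : Pr face) (b : β),
      |t * fl u p.1.1 p.1.2 (orb (sig p) b) / 2| < Real.pi := by
    intro p b
    have h1 : |fl u p.1.1 p.1.2 (orb (sig p) b)| ≤ M + M := by
      rw [fl, Finset.sum_sub_distrib]
      exact (abs_sub _ _).trans (add_le_add (hle _ _) (hle _ _))
    rw [abs_div, abs_mul, abs_of_pos ht0, abs_of_pos (by norm_num : (0 : ℝ) < 2)]
    have := Real.pi_gt_three
    nlinarith
  have hc3 : ∀ (p : Pr face) (b : β), 3 ≤ (orb (sig p) b).card :=
    fun p b => orb_three hinj p b (hst p b).1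
  have key := fun p => pair u ht0 hst hc3 hsm p
  choose r hr hr' using key
  refine ⟨t, fun h0 => ?_⟩
  rw [sum_avg (term u t) (fun p U => ∏ b, if b ∈ U then wA u t p b else wB u t p b)
    (fun p U hU => term_swp u t p U hU)] at h0
  have h1 : (Complex.I) ^ Fintype.card β * ∑ p : Pr face, ((invs p).card : ℂ)⁻¹ *
      ∑ U ∈ invs p, (∏ b, if b ∈ U then wA u t p b else wB u t p b) =
      ∑ p : Pr face, ((((invs p).card : ℝ)⁻¹ * r p : ℝ) : ℂ) *
        Complex.exp (((∑ b, t * (u b (p.1.1 b) + u b (p.1.2 b)) / 2 : ℝ) : ℂ) * Complex.I) := by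
    rw [Finset.mul_sum]
    refine Finset.sum_congr rfl fun p _ => ?_
    rw [hr' p]
    have h2 : (Complex.I) ^ Fintype.card β * (-Complex.I) ^ Fintype.card β = 1 := by
      rw [← mul_pow]; simp
    push_cast
    linear_combination (((invs p).card : ℂ)⁻¹ * (r p : ℂ) *
      Complex.exp ((∑ b, (t : ℂ) * ((u b (p.1.1 b) : ℂ) + (u b (p.1.2 b) : ℂ)) / 2) *
        Complex.I)) * h2
  rw [h0, mul_zero] at h1
  have h3 := congrArg Complex.re h1
  rw [Complex.zero_re, Complex.re_sum] at h3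
  have h4 : ∀ p : Pr face, 0 < (((((invs p).card : ℝ)⁻¹ * r p : ℝ) : ℂ) *
        Complex.exp (((∑ b, t * (u b (p.1.1 b) + u b (p.1.2 b)) / 2 : ℝ) : ℂ) *
          Complex.I)).re := by
    intro p
    rw [Complex.re_ofReal_mul, Complex.exp_ofReal_mul_I_re]
    have hN : (0 : ℝ) < (invs p).card := by
      rw [Nat.cast_pos]
      exact Finset.card_pos.2 ⟨∅, empty_mem_invs p⟩
    refine mul_pos (mul_pos (inv_pos.2 hN) (hr p)) (Real.cos_pos_of_mem_Ioo ?_)
    have h5 : ∑ b, t * (u b (p.1.1 b) + u b (p.1.2 b)) / 2 =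
        t * (∑ b, u b (p.1.1 b) + ∑ b, u b (p.1.2 b)) / 2 := by
      rw [← Finset.sum_add_distrib, Finset.mul_sum, Finset.sum_div]
    have h6 : |t * (∑ b, u b (p.1.1 b) + ∑ b, u b (p.1.2 b)) / 2| ≤ t * M := by
      rw [abs_div, abs_mul, abs_of_pos ht0, abs_of_pos (by norm_num : (0 : ℝ) < 2)]
      have h7 : |∑ b, u b (p.1.1 b) + ∑ b, u b (p.1.2 b)| ≤ M + M :=
        (abs_add_le _ _).trans (add_le_add (hle _ _) (hle _ _))
      nlinarith
    have h8 := abs_le.1 h6
    have := Real.pi_gt_three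
    rw [h5]
    constructor <;> linarith [h8.1, h8.2]
  obtain ⟨p₀⟩ := hne
  have h9 : 0 < ∑ p : Pr face, (((((invs p).card : ℝ)⁻¹ * r p : ℝ) : ℂ) *
        Complex.exp (((∑ b, t * (u b (p.1.1 b) + u b (p.1.2 b)) / 2 : ℝ) : ℂ) *
          Complex.I)).re :=
    Finset.sum_pos (fun p _ => h4 p) ⟨p₀, mem_univ _⟩
  rw [← h3] at h9
  exact lt_irrefl _ h9

/-- **Steps 3 and 4.** If the flux and the sign are compatible on every cycle of every disjoint
pair of matchings (STAR) and there is such a pair, then there is a good matching. -/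
theorem exists_good (u : β → Fin 3 → ℝ) (hst : Star face u)
    (hinj : ∀ b c c' x, face b c = some x → face b c' = some x → c = c')
    (hne : Nonempty (Pr face)) : ∃ f, IsM face f ∧ Good face f := by
  by_contra hcon
  push Not at hcon
  obtain ⟨t, ht⟩ := sum_term_ne u hst hinj hne
  apply ht
  apply sum_term_zero u t
  intro f hf
  by_contra hS
  exact hcon f hf (good_of_SS (fun p b => (hst p b).1) hf hS)

end Vale.Agent.P039.H272
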