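import Vale.Agent.P039.H272.Det

/-!
# Step 4: a disjoint pair gives a good matching
-/

namespace Vale.Agent.P039.H272

open Finset Equiv

variable {β X : Type*} [Fintype β] [DecidableEq β] [Fintype X] [DecidableEq X]
  {face : β → Fin 3 → Option X}

noncomputable instance : Fintype (Pr face) := Fintype.ofFinite _

noncomputable instance : DecidableEq (Pr face) := Classical.decEq _

/-- the sign of a pair on a set of blacks -/
def epr (f g : β → Fin 3) (C : Finset β) : ℤ := ∏ b ∈ C, eps (g b - f b)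

/-- the flux of a pair through a set of blacks -/
def fl (u : β → Fin 3 → ℝ) (f g : β → Fin 3) (C : Finset β) : ℝ :=
  ∑ b ∈ C, (u b (f b) - u b (g b))

variable (face) in
/-- **the interface (STAR)** -/
def Star (u : β → Fin 3 → ℝ) : Prop := ∀ (p : Pr face) (b : β),
  Odd (orb (sig p) b).card ∧
  0 < (-1 : ℝ) ^ (((orb (sig p) b).card - 3) / 2) * (epr p.1.1 p.1.2 (orb (sig p) b)) *
    fl u p.1.1 p.1.2 (orb (sig p) b)

open Classical in
/-- the invariant sets of a pair -/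
noncomputable def invs (p : Pr face) : Finset (Finset β) :=
  (univ : Finset (Finset β)).filter (Inv (sig p))

theorem mem_invs {p : Pr face} {U : Finset β} : U ∈ invs p ↔ Inv (sig p) U := by
  simp [invs]

theorem invs_swp (p : Pr face) {U : Finset β} (hU : Inv (sig p) U) :
    invs (swp p U hU) = invs p := by
  ext V
  rw [mem_invs, mem_invs, inv_swp]

theorem empty_mem_invs (p : Pr face) : ∅ ∈ invs p := by
  rw [mem_invs]
  intro b
  simp

/-- **averaging over the exchanges** -/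
theorem sum_avg (F : Pr face → ℂ) (G : Pr face → Finset β → ℂ)
    (hG : ∀ p U (hU : Inv (sig p) U), G p U = F (swp p U hU)) :
    ∑ p, F p = ∑ p, ((invs p).card : ℂ)⁻¹ * ∑ U ∈ invs p, G p U := by
  classical
  have h1 : ∑ p, ((invs p).card : ℂ)⁻¹ * ∑ U ∈ invs p, G p U =
      ∑ x ∈ (univ : Finset (Pr face)).sigma (fun p => invs p),
        ((invs x.1).card : ℂ)⁻¹ * G x.1 x.2 := by
    rw [Finset.sum_sigma]
    exact Finset.sum_congr rfl fun p _ => Finset.mul_sum _ _ _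
  have h2 : ∑ x ∈ (univ : Finset (Pr face)).sigma (fun p => invs p),
        ((invs x.1).card : ℂ)⁻¹ * G x.1 x.2 =
      ∑ x ∈ (univ : Finset (Pr face)).sigma (fun p => invs p),
        ((invs x.1).card : ℂ)⁻¹ * F x.1 := by
    have hm : ∀ x ∈ (univ : Finset (Pr face)).sigma (fun p => invs p), Inv (sig x.1) x.2 :=
      fun x hx => mem_invs.1 (Finset.mem_sigma.1 hx).2
    have key : ∀ (x : Sigma fun _ : Pr face => Finset β) (h : Inv (sig x.1) x.2)
        (h' : Inv (sig (swp x.1 x.2 h)) x.2),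
        (⟨swp (swp x.1 x.2 h) x.2 h', x.2⟩ : Sigma fun _ : Pr face => Finset β) = x := by
      rintro ⟨p, U⟩ h h'
      dsimp only
      rw [swp_swp p h h']
    refine Finset.sum_bij' (fun x hx => ⟨swp x.1 x.2 (hm x hx), x.2⟩)
      (fun x hx => ⟨swp x.1 x.2 (hm x hx), x.2⟩) ?_ ?_ ?_ ?_ ?_
    · intro x hx
      refine Finset.mem_sigma.2 ⟨mem_univ _, ?_⟩
      show x.2 ∈ invs (swp x.1 x.2 (hm x hx))
      rw [invs_swp]
      exact (Finset.mem_sigma.1 hx).2
    · intro x hx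
      refine Finset.mem_sigma.2 ⟨mem_univ _, ?_⟩
      show x.2 ∈ invs (swp x.1 x.2 (hm x hx))
      rw [invs_swp]
      exact (Finset.mem_sigma.1 hx).2
    · intro x hx
      exact key x (hm x hx) (mem_invs.1 (by
        rw [invs_swp]
        exact (Finset.mem_sigma.1 hx).2))
    · intro x hx
      exact key x (hm x hx) (mem_invs.1 (by
        rw [invs_swp]
        exact (Finset.mem_sigma.1 hx).2))
    · intro x hx
      show ((invs x.1).card : ℂ)⁻¹ * G x.1 x.2 =
        ((invs (swp x.1 x.2 (hm x hx))).card : ℂ)⁻¹ * F (swp x.1 x.2 (hm x hx))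
      rw [invs_swp, hG x.1 x.2 (hm x hx)]
  rw [h1, h2, Finset.sum_sigma]
  refine Finset.sum_congr rfl fun p _ => ?_
  have hne : ((invs p).card : ℂ) ≠ 0 := by
    rw [Nat.cast_ne_zero]
    exact (Finset.card_pos.2 ⟨∅, empty_mem_invs p⟩).ne'
  show F p = ∑ s ∈ invs p, ((invs p).card : ℂ)⁻¹ * F p
  rw [Finset.sum_const, nsmul_eq_mul, ← mul_assoc, mul_inv_cancel₀ hne, one_mul]

/-- `(-1)^((k-3)/2) i = (-i)^k` for odd `k ≥ 3` -/
theorem neg_one_pow_I {k : ℕ} (hk : Odd k) (h3 : 3 ≤ k) :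
    (-1 : ℂ) ^ ((k - 3) / 2) * Complex.I = (-Complex.I) ^ k := by
  obtain ⟨m, rfl⟩ := hk
  obtain ⟨j, rfl⟩ : ∃ j, m = j + 1 := ⟨m - 1, by omega⟩
  have : (2 * (j + 1) + 1 - 3) / 2 = j := by omega
  rw [this, show 2 * (j + 1) + 1 = 2 * j + 3 by ring, pow_add, pow_mul]
  have h1 : (-Complex.I) ^ 2 = -1 := by rw [neg_sq, Complex.I_sq]
  have h2 : (-Complex.I) ^ 3 = Complex.I := by
    rw [pow_succ, h1]; ring
  rw [h1, h2]

theorem filter_cl (σ : Perm β) (b₀ : β) :
    univ.filter (fun b => cl σ b = cl σ b₀) = orb σ b₀ := by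
  ext b
  simp only [mem_filter, mem_univ, true_and]
  rw [mem_orb, cl_eq]
  exact Perm.sameCycle_comm

theorem epr_ne (p : Pr face) (C : Finset β) : epr p.1.1 p.1.2 C = 1 ∨ epr p.1.1 p.1.2 C = -1 := by
  classical
  induction C using Finset.induction_on with
  | empty => left; rfl
  | insert b C hb ih =>
    unfold epr at ih ⊢
    rw [Finset.prod_insert hb]
    rcases eps_ne (p.2.2.2 b) with h1 | h1 <;> rcases ih with h2 | h2 <;> rw [h1, h2] <;> decide

theorem mul_sin_pos {c d t : ℝ} (ht : 0 < t) (hcd : 0 < c * d) (hd : |t * d / 2| < Real.pi) :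
    0 < c * Real.sin (t * d / 2) := by
  rcases lt_trichotomy d 0 with h | h | h
  · have hc : c < 0 := by
      by_contra hc
      push Not at hc
      nlinarith [mul_nonneg hc (neg_nonneg.2 h.le)]
    have h1 : t * d / 2 < 0 := by nlinarith
    have h2 := Real.sin_neg_of_neg_of_neg_pi_lt h1 (abs_lt.1 hd).1
    exact mul_pos_of_neg_of_neg hc h2
  · rw [h, mul_zero] at hcd
    exact absurd hcd (lt_irrefl _)
  · have hc : 0 < c := by
      by_contra hc
      push Not at hc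
      nlinarith [mul_nonneg (neg_nonneg.2 hc) h.le]
    have h1 : 0 < t * d / 2 := by positivity
    exact mul_pos hc (Real.sin_pos_of_pos_of_lt_pi h1 (abs_lt.1 hd).2)

/-- the weights -/
noncomputable def wA (u : β → Fin 3 → ℝ) (t : ℝ) (p : Pr face) (b : β) : ℂ :=
  -(eps (p.1.2 b - p.1.1 b) : ℂ) * Complex.exp (((t * u b (p.1.2 b) : ℝ) : ℂ) * Complex.I)

noncomputable def wB (u : β → Fin 3 → ℝ) (t : ℝ) (p : Pr face) (b : β) : ℂ :=
  (eps (p.1.2 b - p.1.1 b) : ℂ) * Complex.exp (((t * u b (p.1.1 b) : ℝ) : ℂ) * Complex.I)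

noncomputable def term (u : β → Fin 3 → ℝ) (t : ℝ) (p : Pr face) : ℂ := ∏ b, wB u t p b

theorem term_swp (u : β → Fin 3 → ℝ) (t : ℝ) (p : Pr face) (U : Finset β)
    (hU : Inv (sig p) U) :
    (∏ b, if b ∈ U then wA u t p b else wB u t p b) = term u t (swp p U hU) := by
  unfold term
  refine Finset.prod_congr rfl fun b _ => ?_
  by_cases h : b ∈ U
  · simp only [h, if_true, wA, wB, swp, mix]
    rw [eps_sub (p.1.1 b)]
    push_cast
    ring
  · simp only [h, if_false, wB, swp, mix]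

/-- one cycle -/
theorem cyc (u : β → Fin 3 → ℝ) {t : ℝ} (ht : 0 < t) (p : Pr face) (C : Finset β)
    (hodd : Odd C.card) (h3 : 3 ≤ C.card)
    (hpos : 0 < (-1 : ℝ) ^ ((C.card - 3) / 2) * (epr p.1.1 p.1.2 C) * fl u p.1.1 p.1.2 C)
    (hsm : |t * fl u p.1.1 p.1.2 C / 2| < Real.pi) :
    ∃ r : ℝ, 0 < r ∧ (∏ b ∈ C, wA u t p b) + (∏ b ∈ C, wB u t p b) =
      (-Complex.I) ^ C.card * (r : ℂ) *
        Complex.exp (((∑ b ∈ C, t * (u b (p.1.1 b) + u b (p.1.2 b)) / 2 : ℝ) : ℂ) * Complex.I) := by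
  set c : ℝ := (-1 : ℝ) ^ ((C.card - 3) / 2) * (epr p.1.1 p.1.2 C) with hc
  set d : ℝ := fl u p.1.1 p.1.2 C with hd
  refine ⟨2 * (c * Real.sin (t * d / 2)), by
    have := mul_sin_pos ht hpos hsm
    positivity, ?_⟩
  have hA : ∏ b ∈ C, wA u t p b = -((epr p.1.1 p.1.2 C : ℤ) : ℂ) *
      Complex.exp (((∑ b ∈ C, t * u b (p.1.2 b) : ℝ) : ℂ) * Complex.I) := by
    simp only [wA, neg_mul]
    rw [Finset.prod_neg, Finset.prod_mul_distrib, hodd.neg_one_pow, ← Complex.exp_sum,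
      ← Finset.sum_mul, Complex.ofReal_sum, epr]
    push_cast
    ring
  have hB : ∏ b ∈ C, wB u t p b = ((epr p.1.1 p.1.2 C : ℤ) : ℂ) *
      Complex.exp (((∑ b ∈ C, t * u b (p.1.1 b) : ℝ) : ℂ) * Complex.I) := by
    simp only [wB]
    rw [Finset.prod_mul_distrib, ← Complex.exp_sum,
      ← Finset.sum_mul, Complex.ofReal_sum, epr]
    push_cast
    ring
  set x : ℝ := ∑ b ∈ C, t * u b (p.1.1 b) with hx
  set y : ℝ := ∑ b ∈ C, t * u b (p.1.2 b) with hy
  have hs : ∑ b ∈ C, t * (u b (p.1.1 b) + u b (p.1.2 b)) / 2 = (x + y) / 2 := by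
    rw [hx, hy, ← Finset.sum_add_distrib, Finset.sum_div]
    exact Finset.sum_congr rfl fun b _ => by ring
  have hdd : t * d / 2 = (x - y) / 2 := by
    rw [hx, hy, ← Finset.sum_sub_distrib, hd, fl, Finset.mul_sum]
    congr 1
    exact Finset.sum_congr rfl fun b _ => by ring
  rw [hA, hB, hs, hdd]
  have e1 : Complex.exp ((x : ℂ) * Complex.I) = Complex.exp ((((x + y) / 2 : ℝ) : ℂ) * Complex.I) *
      Complex.exp ((((x - y) / 2 : ℝ) : ℂ) * Complex.I) := by
    rw [← Complex.exp_add]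
    congr 1
    push_cast
    ring
  have e2 : Complex.exp ((y : ℂ) * Complex.I) = Complex.exp ((((x + y) / 2 : ℝ) : ℂ) * Complex.I) *
      Complex.exp (-(((x - y) / 2 : ℝ) : ℂ) * Complex.I) := by
    rw [← Complex.exp_add]
    congr 1
    push_cast
    ring
  have e3 : Complex.exp ((((x - y) / 2 : ℝ) : ℂ) * Complex.I) -
      Complex.exp (-(((x - y) / 2 : ℝ) : ℂ) * Complex.I) =
      2 * Complex.I * ((Real.sin ((x - y) / 2) : ℝ) : ℂ) := by
    rw [Complex.ofReal_sin, Complex.sin]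
    field_simp
    ring_nf
    rw [Complex.I_sq]
    ring
  have e4 := neg_one_pow_I hodd h3
  have e5 : ((-1 : ℂ) ^ ((C.card - 3) / 2)) * ((-1 : ℂ) ^ ((C.card - 3) / 2)) = 1 := by
    rw [← mul_pow]; simp
  have e6 : ((2 * (c * Real.sin ((x - y) / 2)) : ℝ) : ℂ) = 2 * ((-1 : ℂ) ^ ((C.card - 3) / 2) *
      ((epr p.1.1 p.1.2 C : ℤ) : ℂ) * ((Real.sin ((x - y) / 2) : ℝ) : ℂ)) := by
    rw [hc]; push_cast; ring
  rw [e1, e2, ← e4, e6]
  generalize Complex.exp ((((x + y) / 2 : ℝ) : ℂ) * Complex.I) = P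
  generalize ((Real.sin ((x - y) / 2) : ℝ) : ℂ) = S at e3 ⊢
  generalize Complex.exp ((((x - y) / 2 : ℝ) : ℂ) * Complex.I) = Q at e3 ⊢
  generalize Complex.exp (-(((x - y) / 2 : ℝ) : ℂ) * Complex.I) = R at e3 ⊢
  generalize ((epr p.1.1 p.1.2 C : ℤ) : ℂ) = E
  generalize ((-1 : ℂ) ^ ((C.card - 3) / 2)) = w at e5 ⊢
  linear_combination (E * P) * e3 - (2 * Complex.I * E * S * P) * e5

theorem card_fiber (σ : Perm β) :
    ∑ q : Orb σ, (univ.filter (fun b => cl σ b = q)).card = Fintype.card β := by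
  rw [← Finset.card_univ, Finset.card_eq_sum_card_fiberwise (f := cl σ) (t := univ)
    (fun _ _ => mem_univ _)]

/-- one pair, all exchanges -/
theorem pair (u : β → Fin 3 → ℝ) {t : ℝ} (ht : 0 < t) (hst : Star face u)
    (hc3 : ∀ (p : Pr face) (b : β), 3 ≤ (orb (sig p) b).card)
    (hsm : ∀ (p : Pr face) (b : β), |t * fl u p.1.1 p.1.2 (orb (sig p) b) / 2| < Real.pi)
    (p : Pr face) :
    ∃ r : ℝ, 0 < r ∧ ∑ U ∈ invs p, (∏ b, if b ∈ U then wA u t p b else wB u t p b) =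
      (-Complex.I) ^ Fintype.card β * (r : ℂ) *
        Complex.exp (((∑ b, t * (u b (p.1.1 b) + u b (p.1.2 b)) / 2 : ℝ) : ℂ) * Complex.I) := by
  classical
  have h1 : ∀ q : Orb (sig p), ∃ r : ℝ, 0 < r ∧
      (∏ b ∈ univ.filter (fun b => cl (sig p) b = q), wA u t p b) +
        (∏ b ∈ univ.filter (fun b => cl (sig p) b = q), wB u t p b) =
      (-Complex.I) ^ (univ.filter (fun b => cl (sig p) b = q)).card * (r : ℂ) *
        Complex.exp (((∑ b ∈ univ.filter (fun b => cl (sig p) b = q),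
          t * (u b (p.1.1 b) + u b (p.1.2 b)) / 2 : ℝ) : ℂ) * Complex.I) := by
    intro q
    obtain ⟨b, rfl⟩ : ∃ b, cl (sig p) b = q := Quotient.exists_rep q
    rw [filter_cl]
    exact cyc u ht p _ (hst p b).1 (hc3 p b) (hst p b).2 (hsm p b)
  choose r hr hr' using h1
  refine ⟨∏ q, r q, Finset.prod_pos fun q _ => hr q, ?_⟩
  have h2 := inv_sum (sig p) (wA u t p) (wB u t p)
  have h3 : invs p = (univ : Finset (Finset β)).filter (Inv (sig p)) := by
    ext U; rw [mem_invs]; simp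
  rw [h3, h2, Finset.prod_congr rfl fun q _ => hr' q, Finset.prod_mul_distrib,
    Finset.prod_mul_distrib, Finset.prod_pow_eq_pow_sum, card_fiber, ← Complex.exp_sum,
    ← Finset.sum_mul, Complex.ofReal_prod]
  congr 3
  rw [← Complex.ofReal_sum, Finset.sum_fiberwise]

end Vale.Agent.P039.H272
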